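import Vale.Agent.P038.H543.Gap

/-!
# P038 (H543): the minimum of the inner cut problem is at most the minimum of the outer one
-/

namespace Vale.Agent.P038.H543

open Finset

variable {V : Type*} [Fintype V]

open Classical in
/-- Indicator. -/
noncomputable def ind (p : Prop) : ℤ := if p then 1 else 0

theorem ind_true {p : Prop} (h : p) : ind p = 1 := if_pos h

theorem ind_false {p : Prop} (h : ¬ p) : ind p = 0 := if_neg h

theorem ind_le {p : Prop} : ind p ≤ 1 := by
  unfold ind; split_ifs <;> norm_num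

theorem ind_nonneg {p : Prop} : 0 ≤ ind p := by
  unfold ind; split_ifs <;> norm_num

theorem card_ind (S : Finset V) : (S.card : ℤ) = ∑ b, ind (b ∈ S) := by
  classical
  have h : ∀ b, ind (b ∈ S) = if b ∈ S then (1 : ℤ) else 0 := by
    intro b
    unfold ind
    split_ifs <;> rfl
  simp only [h]
  simp

theorem swap_ind (Q : V → Finset V) : ∑ b, ((Q b).card : ℤ) = ∑ a, ∑ b, ind (a ∈ Q b) := by
  rw [Finset.sum_comm]
  exact Finset.sum_congr rfl fun b _ => card_ind (Q b)

theorem row_ind (Q : V → Finset V) : ∑ a, ((Q a).card : ℤ) = ∑ a, ∑ b, ind (b ∈ Q a) :=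
  Finset.sum_congr rfl fun b _ => card_ind (Q b)

/-- Outer admissible pairs. -/
structure Adm (D : OGraph V) (B U : V → Finset V) : Prop where
  base : ∀ a b, (a = b ∨ D.arc a b) → b ∈ B a
  le : ∀ a, B a ⊆ U a
  norev : ∀ a y, D.arc y a → y ∉ U a

/-- The cost of an outer pair. -/
noncomputable def G (D : OGraph V) (B U : V → Finset V) : ℤ :=
  ∑ a, hh D (B a) + ∑ a, ((U a).card : ℤ) - ∑ z, ((M D U z).card : ℤ)

/-- Inner admissible pairs. -/
structure Inn (D : OGraph V) (X Y : V → Finset V) : Prop where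
  fst : ∀ a, a ∈ X a
  snd : ∀ a, a ∈ Y a
  sep : ∀ a b, a ≠ b → b ∈ cl D (X a) → a ∉ cl D (Y b)

/-- The cost of an inner pair. -/
noncomputable def J (D : OGraph V) (X Y : V → Finset V) : ℤ :=
  ∑ a, hh D (X a) + ∑ a, hh D (Y a)

/-- If `(X, Y)` is inner admissible, its closure is outer admissible, with the same cost. -/
theorem out_of_inn [DecidableEq V] (D : OGraph V) (X Y : V → Finset V) (h : Inn D X Y) :
    ∃ B U, Adm D B U ∧ G D B U ≤ J D (fun a => cl D (X a)) (fun a => cl D (Y a)) := by
  classical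
  set Q : V → Finset V := fun b => cl D (Y b) with hQ
  set U : V → Finset V := fun a => Finset.univ.filter fun b => b = a ∨ a ∉ Q b with hU
  have mU : ∀ a b, b ∈ U a ↔ (b = a ∨ a ∉ Q b) := fun a b => by simp [hU]
  have hQs : ∀ a, a ∈ Q a := fun a => subset_cl D _ (h.snd a)
  have hQn : ∀ a b, D.arc a b → b ∈ Q a := fun a b hab => mem_cl.2 ⟨a, h.snd a, Or.inr hab⟩
  have hadm : Adm D (fun a => cl D (X a)) U := by
    refine ⟨?_, ?_, ?_⟩
    · intro a b hab
      exact mem_cl.2 ⟨a, h.fst a, hab⟩
    · intro a b hb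
      rw [mU]
      by_cases hab : b = a
      · exact Or.inl hab
      · exact Or.inr (h.sep a b (fun e => hab e.symm) hb)
    · intro a y hya hy
      rcases (mU a y).1 hy with rfl | h1
      · exact D.loopless _ hya
      · exact h1 (hQn y a hya)
  refine ⟨fun a => cl D (X a), U, hadm, ?_⟩
  have key : ∑ a, ((U a).card : ℤ) + ∑ b, ((Q b).card : ℤ) ≤
      ∑ z, ((M D U z).card : ℤ) + ∑ b, ((cl D (Q b)).card : ℤ) := by
    rw [row_ind U, row_ind (M D U), swap_ind Q, swap_ind (fun b => cl D (Q b)),
      ← Finset.sum_add_distrib, ← Finset.sum_add_distrib]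
    refine Finset.sum_le_sum fun a _ => ?_
    rw [← Finset.sum_add_distrib, ← Finset.sum_add_distrib]
    refine Finset.sum_le_sum fun b _ => ?_
    by_cases hab : b = a
    · subst hab
      have h1 : b ∈ M D U b := by
        rw [mem_M]
        rintro a (rfl | ha)
        · rw [mU]; exact Or.inl rfl
        · exact hadm.le a (hadm.base a b (Or.inr ha))
      rw [ind_true h1, ind_true (subset_cl D _ (hQs b))]
      have h2 := @ind_le (b ∈ U b)
      have h3 := @ind_le (b ∈ Q b)
      linarith
    · have h1 : ind (b ∈ U a) + ind (a ∈ Q b) = 1 := by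
        by_cases h2 : a ∈ Q b
        · have h3 : b ∉ U a := by
            rw [mU]; push Not; exact ⟨hab, h2⟩
          rw [ind_true h2, ind_false h3]; rfl
        · have h3 : b ∈ U a := (mU a b).2 (Or.inr h2)
          rw [ind_false h2, ind_true h3]; rfl
      rw [h1]
      by_cases h2 : a ∈ cl D (Q b)
      · rw [ind_true h2]
        have := @ind_nonneg (b ∈ M D U a)
        linarith
      · have h3 : b ∈ M D U a := by
          rw [mem_M]
          intro a' ha'
          rw [mU]
          exact Or.inr fun h4 => h2 (mem_cl.2 ⟨a', h4, ha'⟩)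
        rw [ind_true h3]
        have := @ind_nonneg (a ∈ cl D (Q b))
        linarith
  have e : ∑ a, hh D (cl D (Y a)) = ∑ b, ((cl D (Q b)).card : ℤ) - ∑ b, ((Q b).card : ℤ) := by
    rw [← Finset.sum_sub_distrib]
    rfl
  unfold G J
  rw [e]
  linarith

/-- The candidate. -/
theorem inn_of_out [DecidableEq V] (D : OGraph V) (B U : V → Finset V) (h : Adm D B U)
    (hgap : ∑ a, (hh D (U a) - hh D (B a)) ≤ ∑ z, (hh D (M D U z) - hh D (M D B z))) :
    ∃ X Y, Inn D X Y ∧ J D X Y ≤ G D B U := by
  classical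
  set Y : V → Finset V := fun x => Finset.univ.filter fun z => z = x ∨ x ∉ cl D (U z) with hY
  have mY : ∀ x z, z ∈ Y x ↔ (z = x ∨ x ∉ cl D (U z)) := fun x z => by simp [hY]
  have claim : ∀ z x, x ≠ z → x ∈ cl D (M D U z) → z ∉ cl D (Y x) := by
    intro z x hxz hx hz
    obtain ⟨u, hu, hux⟩ := mem_cl.1 hx
    obtain ⟨z', hz', hzz⟩ := mem_cl.1 hz
    rw [mem_M] at hu
    rcases (mY x z').1 hz' with rfl | h1
    · -- `z' = x → z`
      rcases hzz with h2 | h2
      · exact hxz h2
      · have h3 := hu z' (Or.inr h2)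
        rcases hux with rfl | h4
        · exact h.norev z u h2 (hu z (Or.inl rfl))
        · exact h.norev z' u h4 h3
    · exact h1 (mem_cl.2 ⟨u, hu z' hzz, hux⟩)
  have hMB : ∀ z, M D B z ⊆ M D U z := fun z b hb =>
    mem_M.2 fun a ha => h.le a (mem_M.1 hb a ha)
  have hself : ∀ z, z ∈ M D B z := by
    intro z
    rw [mem_M]
    intro a ha
    exact h.base a z ha
  have hUself : ∀ z, z ∈ U z := fun z => h.le z (h.base z z (Or.inl rfl))
  refine ⟨M D B, Y, ⟨hself, fun a => (mY a a).2 (Or.inl rfl), fun a b hab hb =>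
    claim a b (fun e => hab e.symm) (cl_mono D (hMB a) hb)⟩, ?_⟩
  have key : ∑ x, ((cl D (Y x)).card : ℤ) + ∑ z, ((cl D (M D U z)).card : ℤ) ≤
      ∑ x, ((Y x).card : ℤ) + ∑ z, ((cl D (U z)).card : ℤ) := by
    rw [swap_ind (fun x => cl D (Y x)), swap_ind Y, row_ind (fun z => cl D (M D U z)),
      row_ind (fun z => cl D (U z)), ← Finset.sum_add_distrib, ← Finset.sum_add_distrib]
    refine Finset.sum_le_sum fun z _ => ?_
    rw [← Finset.sum_add_distrib, ← Finset.sum_add_distrib]
    refine Finset.sum_le_sum fun x _ => ?_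
    by_cases hxz : x = z
    · subst hxz
      rw [ind_true ((mY x x).2 (Or.inl rfl)), ind_true (subset_cl D _ (hUself x))]
      have h2 := @ind_le (x ∈ cl D (Y x))
      have h3 := @ind_le (x ∈ cl D (M D U x))
      linarith
    · have h1 : ind (z ∈ Y x) + ind (x ∈ cl D (U z)) = 1 := by
        by_cases h2 : x ∈ cl D (U z)
        · have h3 : z ∉ Y x := by
            rw [mY]; push Not; exact ⟨fun e => hxz e.symm, h2⟩
          rw [ind_true h2, ind_false h3]; rfl
        · have h3 : z ∈ Y x := (mY x z).2 (Or.inr h2)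
          rw [ind_false h2, ind_true h3]; rfl
      rw [h1]
      by_cases h2 : x ∈ cl D (M D U z)
      · rw [ind_true h2, ind_false (claim z x hxz h2)]; norm_num
      · rw [ind_false h2]
        have := @ind_le (z ∈ cl D (Y x))
        linarith
  have e1 : ∑ x, hh D (Y x) = ∑ x, ((cl D (Y x)).card : ℤ) - ∑ x, ((Y x).card : ℤ) := by
    rw [← Finset.sum_sub_distrib]; rfl
  have e2 : ∑ a, (hh D (U a) - hh D (B a)) = ∑ z, ((cl D (U z)).card : ℤ) -
      ∑ z, ((U z).card : ℤ) - ∑ a, hh D (B a) := by
    rw [Finset.sum_sub_distrib]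
    congr 1
    rw [← Finset.sum_sub_distrib]; rfl
  have e3 : ∑ z, (hh D (M D U z) - hh D (M D B z)) = ∑ z, ((cl D (M D U z)).card : ℤ) -
      ∑ z, ((M D U z).card : ℤ) - ∑ z, hh D (M D B z) := by
    rw [Finset.sum_sub_distrib]
    congr 1
    rw [← Finset.sum_sub_distrib]; rfl
  rw [e2, e3] at hgap
  unfold G J
  rw [e1]
  linarith

/-- Optimality of the rows. -/
theorem row_opt [DecidableEq V] (D : OGraph V) (B U : V → Finset V) (h : Adm D B U)
    (hmin : ∀ B' U', Adm D B' U' → G D B U ≤ G D B' U') (a : V) (Y : Finset V)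
    (h1 : B a ⊆ Y) (h2 : Y ⊆ U a) : hh D (B a) ≤ hh D Y := by
  have hadm : Adm D (Function.update B a Y) U := by
    refine ⟨?_, ?_, h.norev⟩
    · intro a' b hab
      by_cases he : a' = a
      · subst he
        rw [Function.update_self]
        exact h1 (h.base a' b hab)
      · rw [Function.update_of_ne he]
        exact h.base a' b hab
    · intro a'
      by_cases he : a' = a
      · subst he
        rw [Function.update_self]
        exact h2
      · rw [Function.update_of_ne he]
        exact h.le a'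
  have h3 := hmin _ _ hadm
  unfold G at h3
  have e1 : ∑ a', hh D (Function.update B a Y a') =
      hh D Y + ∑ a' ∈ Finset.univ.erase a, hh D (B a') := by
    rw [← Finset.add_sum_erase _ _ (Finset.mem_univ a), Function.update_self]
    congr 1
    refine Finset.sum_congr rfl fun a' ha' => ?_
    rw [Function.update_of_ne (Finset.ne_of_mem_erase ha')]
  have e2 : ∑ a', hh D (B a') = hh D (B a) + ∑ a' ∈ Finset.univ.erase a, hh D (B a') :=
    (Finset.add_sum_erase _ _ (Finset.mem_univ a)).symm
  rw [e1, e2] at h3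
  linarith

/-- Optimality of the columns. -/
theorem col_opt [DecidableEq V] (D : OGraph V) (B U : V → Finset V) (h : Adm D B U)
    (hmin : ∀ B' U', Adm D B' U' → G D B U ≤ G D B' U') (b : V) (S : Finset V)
    (hS : ∀ a ∈ S, b ∈ U a ∧ b ∉ B a) :
    S.card ≤ ((cl D S).filter fun z => b ∈ M D U z).card := by
  set U' : V → Finset V := fun a => if a ∈ S then (U a).erase b else U a with hU'
  have hsub : ∀ a, U' a ⊆ U a := by
    intro a
    simp only [hU']
    split_ifs
    · exact Finset.erase_subset _ _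
    · exact Finset.Subset.refl _
  have hadm : Adm D B U' := by
    refine ⟨h.base, ?_, fun a y hya hy => h.norev a y hya (hsub a hy)⟩
    intro a x hx
    simp only [hU']
    split_ifs with hs
    · refine Finset.mem_erase.2 ⟨?_, h.le a hx⟩
      rintro rfl
      exact (hS a hs).2 hx
    · exact h.le a hx
  have h3 := hmin _ _ hadm
  have e1 : ∑ a, ((U' a).card : ℤ) + S.card = ∑ a, ((U a).card : ℤ) := by
    rw [card_ind S, ← Finset.sum_add_distrib]
    refine Finset.sum_congr rfl fun a _ => ?_
    by_cases hs : a ∈ S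
    · have h4 : U' a = (U a).erase b := by simp only [hU', if_pos hs]
      rw [h4, ind_true hs]
      have h5 := Finset.card_erase_add_one (hS a hs).1
      exact_mod_cast h5
    · have h4 : U' a = U a := by simp only [hU', if_neg hs]
      rw [h4, ind_false hs, add_zero]
  have e2 : ∑ z, ((M D U z).card : ℤ) ≤ ∑ z, ((M D U' z).card : ℤ) +
      ((cl D S).filter fun z => b ∈ M D U z).card := by
    rw [card_ind ((cl D S).filter fun z => b ∈ M D U z), ← Finset.sum_add_distrib]
    refine Finset.sum_le_sum fun z _ => ?_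
    by_cases hz : z ∈ (cl D S).filter fun z => b ∈ M D U z
    · rw [ind_true hz]
      have h4 : (M D U z).erase b ⊆ M D U' z := by
        intro x hx
        obtain ⟨hx1, hx2⟩ := Finset.mem_erase.1 hx
        rw [mem_M] at hx2 ⊢
        intro a ha
        simp only [hU']
        split_ifs
        · exact Finset.mem_erase.2 ⟨hx1, hx2 a ha⟩
        · exact hx2 a ha
      have h5 := Finset.card_le_card h4
      have h6 := Finset.card_erase_add_one (Finset.mem_filter.1 hz).2
      have h7 : (M D U z).card ≤ (M D U' z).card + 1 := by omega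
      exact_mod_cast h7
    · rw [ind_false hz, add_zero]
      have h4 : M D U z ⊆ M D U' z := by
        intro x hx
        rw [mem_M] at hx ⊢
        intro a ha
        simp only [hU']
        split_ifs with hs
        · refine Finset.mem_erase.2 ⟨?_, hx a ha⟩
          rintro rfl
          exact hz (Finset.mem_filter.2 ⟨mem_cl.2 ⟨a, hs, ha⟩, mem_M.2 hx⟩)
        · exact hx a ha
      exact_mod_cast Finset.card_le_card h4
  unfold G at h3
  have h4 : (S.card : ℤ) ≤ (((cl D S).filter fun z => b ∈ M D U z).card : ℤ) := by linarith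
  exact_mod_cast h4

/-- There is an inner admissible pair whose cost does not go down under the closure. -/
theorem inout [DecidableEq V] (D : OGraph V) :
    ∃ X Y, Inn D X Y ∧ J D X Y ≤ J D (fun a => cl D (X a)) (fun a => cl D (Y a)) := by
  classical
  have hne : {p : (V → Finset V) × (V → Finset V) | Inn D p.1 p.2}.Nonempty := by
    refine ⟨(fun a => {a}, fun a => {a}), ⟨fun a => by simp, fun a => by simp, ?_⟩⟩
    intro a b hab hb ha
    obtain ⟨x, hx, hxb⟩ := mem_cl.1 hb
    obtain ⟨y, hy, hya⟩ := mem_cl.1 ha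
    have hx' : x = a := by simpa using hx
    have hy' : y = b := by simpa using hy
    subst hx' hy'
    rcases hxb with h1 | h1
    · exact hab h1
    · rcases hya with h2 | h2
      · exact hab h2.symm
      · exact D.asymm _ _ h1 h2
  obtain ⟨⟨X, Y⟩, hXY, hmin⟩ := Set.exists_min_image _
    (fun p : (V → Finset V) × (V → Finset V) => J D p.1 p.2) (Set.toFinite _) hne
  refine ⟨X, Y, hXY, ?_⟩
  obtain ⟨B0, U0, h0, hJ0⟩ := out_of_inn D X Y hXY
  obtain ⟨⟨B, U⟩, hBU, hmin2⟩ := Set.exists_min_image
    {p : (V → Finset V) × (V → Finset V) | Adm D p.1 p.2}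
    (fun p : (V → Finset V) × (V → Finset V) => G D p.1 p.2) (Set.toFinite _) ⟨(B0, U0), h0⟩
  have hBU' : Adm D B U := hBU
  have hm : ∀ B' U', Adm D B' U' → G D B U ≤ G D B' U' := fun B' U' h' => hmin2 (B', U') h'
  obtain ⟨X', Y', h', hJ'⟩ := inn_of_out D B U hBU' (gap D B U hBU'.le
    (fun a Y h1 h2 => row_opt D B U hBU' hm a Y h1 h2)
    (fun b S hS => col_opt D B U hBU' hm b S hS))
  have h1 : J D X Y ≤ J D X' Y' := hmin (X', Y') h'
  have h2 := hm B0 U0 h0
  linarith

end Vale.Agent.P038.H543
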