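import Vale.Agent.P038.Defs

/-!
# P038 (H543): the gap inequality (proof of helper787, note 22727), unweighted
-/

namespace Vale.Agent.P038.H543

open Finset

variable {V : Type*} [Fintype V]

open Classical in
/-- The closed out-neighbourhood of a set. -/
noncomputable def cl (D : OGraph V) (S : Finset V) : Finset V :=
  Finset.univ.filter fun z => ∃ y ∈ S, y = z ∨ D.arc y z

theorem mem_cl {D : OGraph V} {S : Finset V} {z : V} :
    z ∈ cl D S ↔ ∃ y ∈ S, y = z ∨ D.arc y z := by
  classical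
  simp [cl]

theorem subset_cl (D : OGraph V) (S : Finset V) : S ⊆ cl D S := fun z hz =>
  mem_cl.2 ⟨z, hz, Or.inl rfl⟩

theorem cl_mono (D : OGraph V) {S T : Finset V} (h : S ⊆ T) : cl D S ⊆ cl D T := by
  intro z hz
  obtain ⟨y, hy, hyz⟩ := mem_cl.1 hz
  exact mem_cl.2 ⟨y, h hy, hyz⟩

/-- The number of out-neighbours outside of the set. -/
noncomputable def hh (D : OGraph V) (S : Finset V) : ℤ := ((cl D S).card : ℤ) - (S.card : ℤ)

open Classical in
/-- The meet of the rows over the closed in-neighbourhood of `z`. -/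
noncomputable def M (D : OGraph V) (U : V → Finset V) (z : V) : Finset V :=
  Finset.univ.filter fun b => ∀ a, (a = z ∨ D.arc a z) → b ∈ U a

theorem mem_M {D : OGraph V} {U : V → Finset V} {z b : V} :
    b ∈ M D U z ↔ ∀ a, (a = z ∨ D.arc a z) → b ∈ U a := by
  classical
  simp [M]

theorem M_sub {D : OGraph V} {U : V → Finset V} {z a : V} (h : a = z ∨ D.arc a z) :
    M D U z ⊆ U a := fun _ hb => mem_M.1 hb a h

theorem cl_union [DecidableEq V] (D : OGraph V) (S T : Finset V) :
    cl D (S ∪ T) = cl D S ∪ cl D T := by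
  ext z
  simp only [mem_cl, Finset.mem_union]
  constructor
  · rintro ⟨y, hy | hy, hyz⟩
    · exact Or.inl ⟨y, hy, hyz⟩
    · exact Or.inr ⟨y, hy, hyz⟩
  · rintro (⟨y, hy, hyz⟩ | ⟨y, hy, hyz⟩)
    · exact ⟨y, Or.inl hy, hyz⟩
    · exact ⟨y, Or.inr hy, hyz⟩

theorem hh_submod [DecidableEq V] (D : OGraph V) (S T : Finset V) :
    hh D (S ∪ T) + hh D (S ∩ T) ≤ hh D S + hh D T := by
  have h1 : (cl D (S ∪ T)).card + (cl D (S ∩ T)).card ≤ (cl D S).card + (cl D T).card := by
    rw [← Finset.card_union_add_card_inter (cl D S) (cl D T), cl_union]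
    have h2 : cl D (S ∩ T) ⊆ cl D S ∩ cl D T :=
      Finset.subset_inter (cl_mono D Finset.inter_subset_left)
        (cl_mono D Finset.inter_subset_right)
    have := Finset.card_le_card h2
    omega
  have h3 := Finset.card_union_add_card_inter S T
  unfold hh
  omega

/-- The minimum of `f` over the sets `Y` with `P ∪ (W ∩ Q) ⊆ Y ⊆ Q`. -/
noncomputable def kk [DecidableEq V] (f : Finset V → ℤ) (P Q W : Finset V) : ℤ :=
  sInf (f '' {Y | P ⊆ Y ∧ W ∩ Q ⊆ Y ∧ Y ⊆ Q})

theorem kk_le [DecidableEq V] (f : Finset V → ℤ) {P Q W Y : Finset V} (h1 : P ⊆ Y)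
    (h2 : W ∩ Q ⊆ Y) (h3 : Y ⊆ Q) : kk f P Q W ≤ f Y :=
  csInf_le (Set.toFinite _).bddBelow ⟨Y, ⟨h1, h2, h3⟩, rfl⟩

theorem kk_mem [DecidableEq V] (f : Finset V → ℤ) {P Q : Finset V} (W : Finset V) (h : P ⊆ Q) :
    ∃ Y, P ⊆ Y ∧ W ∩ Q ⊆ Y ∧ Y ⊆ Q ∧ f Y = kk f P Q W := by
  have h1 : (f '' {Y | P ⊆ Y ∧ W ∩ Q ⊆ Y ∧ Y ⊆ Q}).Nonempty :=
    ⟨f Q, Q, ⟨h, Finset.inter_subset_right, Finset.Subset.refl _⟩, rfl⟩
  obtain ⟨Y, ⟨h2, h3, h4⟩, h5⟩ := h1.csInf_mem (Set.toFinite _)
  exact ⟨Y, h2, h3, h4, h5⟩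

theorem kk_mono [DecidableEq V] (f : Finset V → ℤ) {P Q W W' : Finset V} (h : P ⊆ Q)
    (hW : W ⊆ W') : kk f P Q W ≤ kk f P Q W' := by
  obtain ⟨Y, h1, h2, h3, h4⟩ := kk_mem f W' h
  rw [← h4]
  exact kk_le f h1 ((Finset.inter_subset_inter_right hW).trans h2) h3

theorem kk_univ [DecidableEq V] (f : Finset V → ℤ) {P Q : Finset V} (h : P ⊆ Q) :
    kk f P Q Finset.univ = f Q := by
  obtain ⟨Y, h1, h2, h3, h4⟩ := kk_mem f Finset.univ h
  rw [Finset.univ_inter] at h2
  rw [← h4, Finset.Subset.antisymm h3 h2]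

theorem cnt (T : ℕ) (x : ℤ) (h0 : 0 ≤ x) (h1 : x ≤ T) :
    x = ∑ t ∈ Finset.range T, if (t : ℤ) < x then 1 else 0 := by
  lift x to ℕ using h0
  have h2 : (Finset.range T).filter (fun t : ℕ => (t : ℤ) < (x : ℤ)) = Finset.range x := by
    ext t
    simp only [Finset.mem_filter, Finset.mem_range]
    constructor
    · rintro ⟨_, h⟩
      exact_mod_cast h
    · intro h
      refine ⟨?_, by exact_mod_cast h⟩
      have : x ≤ T := by exact_mod_cast h1
      omega
  rw [Finset.sum_boole, h2, Finset.card_range]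

theorem layer (α γ : V → ℤ) (hα : ∀ a, 0 ≤ α a) (hγ : ∀ z, 0 ≤ γ z)
    (hc : ∀ t : ℤ, 0 ≤ t → (Finset.univ.filter fun a => t < α a).card ≤
      (Finset.univ.filter fun z => t < γ z).card) : ∑ a, α a ≤ ∑ z, γ z := by
  set T : ℕ := (∑ a, α a + ∑ z, γ z).toNat with hT
  have hs1 : 0 ≤ ∑ a, α a := Finset.sum_nonneg fun a _ => hα a
  have hs2 : 0 ≤ ∑ z, γ z := Finset.sum_nonneg fun a _ => hγ a
  have hT' : (T : ℤ) = ∑ a, α a + ∑ z, γ z := by
    rw [hT, Int.toNat_of_nonneg (by linarith)]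
  have h1 : ∀ a, α a ≤ T := by
    intro a
    have := Finset.single_le_sum (f := α) (fun a _ => hα a) (Finset.mem_univ a)
    linarith
  have h2 : ∀ a, γ a ≤ T := by
    intro a
    have := Finset.single_le_sum (f := γ) (fun a _ => hγ a) (Finset.mem_univ a)
    linarith
  have e1 : ∑ a, α a = ∑ t ∈ Finset.range T, ((Finset.univ.filter fun a => (t : ℤ) < α a).card : ℤ) := by
    rw [Finset.sum_congr rfl fun a _ => cnt T (α a) (hα a) (h1 a), Finset.sum_comm]
    refine Finset.sum_congr rfl fun t _ => ?_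
    rw [Finset.sum_boole]
  have e2 : ∑ a, γ a = ∑ t ∈ Finset.range T, ((Finset.univ.filter fun a => (t : ℤ) < γ a).card : ℤ) := by
    rw [Finset.sum_congr rfl fun a _ => cnt T (γ a) (hγ a) (h2 a), Finset.sum_comm]
    refine Finset.sum_congr rfl fun t _ => ?_
    rw [Finset.sum_boole]
  rw [e1, e2]
  refine Finset.sum_le_sum fun t _ => ?_
  exact_mod_cast hc t (by positivity)

/-- Row optimality goes down to the meets. -/
theorem meet_le [DecidableEq V] (D : OGraph V) (B U : V → Finset V)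
    (hR : ∀ a Y, B a ⊆ Y → Y ⊆ U a → hh D (B a) ≤ hh D Y) (hBU : ∀ a, B a ⊆ U a) (z : V)
    (Y : Finset V) (h1 : M D B z ⊆ Y) (h2 : Y ⊆ M D U z) : hh D (M D B z) ≤ hh D Y := by
  classical
  have key : ∀ T : Finset V, (∀ a ∈ T, a = z ∨ D.arc a z) →
      hh D (Y.filter fun b => ∀ a ∈ T, b ∈ B a) ≤ hh D Y := by
    intro T
    induction T using Finset.induction_on with
    | empty => intro _; simp
    | insert a T _ ih =>
      intro hT
      have h3 := ih fun a' ha' => hT a' (Finset.mem_insert_of_mem ha')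
      set Y' := Y.filter fun b => ∀ a ∈ T, b ∈ B a with hY'
      have h4 : (Y.filter fun b => ∀ a' ∈ insert a T, b ∈ B a') = Y' ∩ B a := by
        ext b
        simp only [hY', Finset.mem_filter, Finset.mem_inter, Finset.mem_insert]
        constructor
        · rintro ⟨h5, h6⟩
          exact ⟨⟨h5, fun a' ha' => h6 a' (Or.inr ha')⟩, h6 a (Or.inl rfl)⟩
        · rintro ⟨⟨h5, h6⟩, h7⟩
          refine ⟨h5, ?_⟩
          rintro a' (rfl | ha')
          · exact h7
          · exact h6 a' ha'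
      rw [h4]
      have h5 : Y' ⊆ U a := (Finset.filter_subset _ _).trans
        (h2.trans (M_sub (hT a (Finset.mem_insert_self _ _))))
      have h6 := hR a (Y' ∪ B a) Finset.subset_union_right (Finset.union_subset h5 (hBU a))
      have h7 := hh_submod D Y' (B a)
      linarith
  have h3 := key (Finset.univ.filter fun a => a = z ∨ D.arc a z) (by simp)
  have h4 : (Y.filter fun b => ∀ a ∈ Finset.univ.filter (fun a => a = z ∨ D.arc a z), b ∈ B a) =
      M D B z := by
    ext b
    simp only [Finset.mem_filter, Finset.mem_univ, true_and, mem_M]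
    exact ⟨fun h => h.2, fun h => ⟨h1 (mem_M.2 h), h⟩⟩
  rw [h4] at h3
  exact h3

/-- The gap inequality. -/
theorem gap [DecidableEq V] (D : OGraph V) (B U : V → Finset V)
    (hBU : ∀ a, B a ⊆ U a)
    (hR : ∀ a Y, B a ⊆ Y → Y ⊆ U a → hh D (B a) ≤ hh D Y)
    (hC : ∀ (b : V) (S : Finset V), (∀ a ∈ S, b ∈ U a ∧ b ∉ B a) →
      S.card ≤ ((cl D S).filter fun z => b ∈ M D U z).card) :
    ∑ a, (hh D (U a) - hh D (B a)) ≤ ∑ z, (hh D (M D U z) - hh D (M D B z)) := by
  have hM : ∀ z, M D B z ⊆ M D U z := fun z b hb =>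
    mem_M.2 fun a ha => hBU a (mem_M.1 hb a ha)
  have key : ∀ W : Finset V, ∑ a, (kk (hh D) (B a) (U a) W - hh D (B a)) ≤
      ∑ z, (kk (hh D) (M D B z) (M D U z) W - hh D (M D B z)) := by
    intro W
    induction W using Finset.induction_on with
    | empty =>
      have h1 : ∑ a, (kk (hh D) (B a) (U a) ∅ - hh D (B a)) ≤ 0 := by
        refine Finset.sum_nonpos fun a _ => ?_
        have := kk_le (hh D) (P := B a) (Q := U a) (W := ∅) (Finset.Subset.refl _) (by simp)
          (hBU a)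
        linarith
      have h2 : 0 ≤ ∑ z, (kk (hh D) (M D B z) (M D U z) ∅ - hh D (M D B z)) := by
        refine Finset.sum_nonneg fun z _ => ?_
        obtain ⟨Y, h1, -, h3, h4⟩ := kk_mem (hh D) ∅ (hM z)
        rw [← h4]
        have := meet_le D B U hR hBU z Y h1 h3
        linarith
      exact h1.trans h2
    | insert b W hb ih =>
      set α : V → ℤ := fun a => kk (hh D) (B a) (U a) (insert b W) - kk (hh D) (B a) (U a) W
        with hα
      set γ : V → ℤ := fun z => kk (hh D) (M D B z) (M D U z) (insert b W) -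
        kk (hh D) (M D B z) (M D U z) W with hγ
      have hα0 : ∀ a, 0 ≤ α a := fun a =>
        sub_nonneg.2 (kk_mono (hh D) (hBU a) (Finset.subset_insert b W))
      have hγ0 : ∀ z, 0 ≤ γ z := fun z =>
        sub_nonneg.2 (kk_mono (hh D) (hM z) (Finset.subset_insert b W))
      have hαz : ∀ a, 0 < α a → b ∈ U a ∧ b ∉ B a := by
        intro a ha
        by_contra hcon
        have h1 : kk (hh D) (B a) (U a) (insert b W) ≤ kk (hh D) (B a) (U a) W := by
          obtain ⟨Y, h1, h2, h3, h4⟩ := kk_mem (hh D) W (hBU a)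
          rw [← h4]
          refine kk_le (hh D) h1 ?_ h3
          intro x hx
          obtain ⟨hx1, hx2⟩ := Finset.mem_inter.1 hx
          rcases Finset.mem_insert.1 hx1 with rfl | hx1
          · by_cases hxB : x ∈ B a
            · exact h1 hxB
            · exact absurd ⟨hx2, hxB⟩ hcon
          · exact h2 (Finset.mem_inter.2 ⟨hx1, hx2⟩)
        have h2 : α a ≤ 0 := sub_nonpos.2 h1
        linarith
      have hle : ∀ a z, (a = z ∨ D.arc a z) → b ∈ M D U z → α a ≤ γ z := by
        intro a z haz hbz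
        obtain ⟨Y, y1, y2, y3, y4⟩ := kk_mem (hh D) (insert b W) (hM z)
        obtain ⟨Y', x1, x2, x3, x4⟩ := kk_mem (hh D) W (hBU a)
        have hbY : b ∈ Y := y2 (Finset.mem_inter.2 ⟨Finset.mem_insert_self _ _, hbz⟩)
        have h1 : kk (hh D) (B a) (U a) (insert b W) ≤ hh D (Y ∪ Y') := by
          refine kk_le (hh D) (x1.trans Finset.subset_union_right) ?_
            (Finset.union_subset (y3.trans (M_sub haz)) x3)
          intro x hx
          obtain ⟨hx1, hx2⟩ := Finset.mem_inter.1 hx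
          rcases Finset.mem_insert.1 hx1 with rfl | hx1
          · exact Finset.mem_union_left _ hbY
          · exact Finset.mem_union_right _ (x2 (Finset.mem_inter.2 ⟨hx1, hx2⟩))
        have h2 : kk (hh D) (M D B z) (M D U z) W ≤ hh D (Y ∩ Y') := by
          refine kk_le (hh D) (Finset.subset_inter y1 ((M_sub haz).trans x1)) ?_
            (Finset.inter_subset_left.trans y3)
          intro x hx
          obtain ⟨hx1, hx2⟩ := Finset.mem_inter.1 hx
          exact Finset.mem_inter.2 ⟨y2 (Finset.mem_inter.2 ⟨Finset.mem_insert_of_mem hx1, hx2⟩),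
            x2 (Finset.mem_inter.2 ⟨hx1, M_sub haz hx2⟩)⟩
        have h3 := hh_submod D Y Y'
        simp only [hα, hγ]
        linarith
      have hlay : ∑ a, α a ≤ ∑ z, γ z := by
        refine layer α γ hα0 hγ0 fun t ht => ?_
        refine (hC b _ fun a ha => hαz a ?_).trans (Finset.card_le_card ?_)
        · exact lt_of_le_of_lt ht (Finset.mem_filter.1 ha).2
        · intro z hz
          obtain ⟨hz1, hz2⟩ := Finset.mem_filter.1 hz
          obtain ⟨a, ha, haz⟩ := mem_cl.1 hz1
          exact Finset.mem_filter.2 ⟨Finset.mem_univ _,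
            lt_of_lt_of_le (Finset.mem_filter.1 ha).2 (hle a z haz hz2)⟩
      have e1 : ∑ a, (kk (hh D) (B a) (U a) (insert b W) - hh D (B a)) =
          ∑ a, (kk (hh D) (B a) (U a) W - hh D (B a)) + ∑ a, α a := by
        rw [← Finset.sum_add_distrib]
        exact Finset.sum_congr rfl fun a _ => by simp only [hα]; ring
      have e2 : ∑ z, (kk (hh D) (M D B z) (M D U z) (insert b W) - hh D (M D B z)) =
          ∑ z, (kk (hh D) (M D B z) (M D U z) W - hh D (M D B z)) + ∑ z, γ z := by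
        rw [← Finset.sum_add_distrib]
        exact Finset.sum_congr rfl fun a _ => by simp only [hγ]; ring
      rw [e1, e2]
      exact add_le_add ih hlay
  have h1 := key Finset.univ
  simp only [kk_univ (hh D) (hBU _), kk_univ (hh D) (hM _)] at h1
  exact h1

end Vale.Agent.P038.H543
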