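import Vale.Agent.P038.H543.Cut

/-!
# P038 (H543): Seymour's second neighbourhood conjecture
-/

namespace Vale.Agent.P038.H543

open Finset

variable {V : Type*} [Fintype V]

/-- Delete all arcs from `X` to `Z`. -/
def del (D : OGraph V) (X Z : Finset V) : OGraph V where
  arc u z := D.arc u z ∧ ¬ (u ∈ X ∧ z ∈ Z)
  loopless v h := D.loopless v h.1
  asymm u v h h' := D.asymm u v h.1 h'.1

/-- The row of `u`. -/
noncomputable def F (D : OGraph V) (u : V) : ℤ := ((N1 D u).card : ℤ) - ((N2 D u).card : ℤ)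

/-- The number of arcs. -/
noncomputable def numArcs (D : OGraph V) : ℕ := ∑ v, (N1 D v).card

noncomputable def dd [DecidableEq V] (D : OGraph V) (X T : Finset V) : ℤ :=
  ((cl D T \ X).card : ℤ) - 2 * (T.card : ℤ)

/-- The other rows do not get worse when arcs out of `X` are deleted. -/
theorem del_row_out {D : OGraph V} (X Z : Finset V) {y : V} (hy : y ∉ X) :
    F D y ≤ F (del D X Z) y := by
  have h1 : N1 (del D X Z) y = N1 D y := by
    ext z
    rw [mem_N1, mem_N1]
    exact ⟨fun h3 => h3.1, fun h3 => ⟨h3, fun h4 => hy h4.1⟩⟩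
  have h2 : N2 (del D X Z) y ⊆ N2 D y := by
    intro z hz
    rw [mem_N2] at hz ⊢
    obtain ⟨hzv, hnz, c, hvc, hcz⟩ := hz
    exact ⟨hzv, fun h3 => hnz ⟨h3, fun h4 => hy h4.1⟩, c, hvc.1, hcz.1⟩
  have h3 := Finset.card_le_card h2
  unfold F
  rw [h1]
  omega

/-- The row of `y ∈ X` after the deletion of all arcs from `X` to `L \ T`, `L = cl X \ X`. -/
theorem del_row_in [DecidableEq V] {D : OGraph V} (X T : Finset V) {y : V} (hy : y ∈ X) :
    F D y + (dd D X (T ∪ (N1 D y ∩ ((cl D X \ X) \ T))) - dd D X T) ≤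
      F (del D X ((cl D X \ X) \ T)) y := by
  set L := cl D X \ X with hL
  set Z := L \ T with hZ
  set D' := del D X Z with hD'
  set Dy := N1 D y ∩ Z with hDy
  set Ey := cl D Dy \ (cl D T ∪ X) with hEy
  have hN1 : N1 D' y = N1 D y \ Dy := by
    ext z
    rw [mem_N1, Finset.mem_sdiff, hDy, Finset.mem_inter, mem_N1]
    constructor
    · rintro ⟨h1, h2⟩
      exact ⟨h1, fun h3 => h2 ⟨hy, h3.2⟩⟩
    · rintro ⟨h1, h2⟩
      exact ⟨h1, fun h3 => h2 ⟨h1, h3.2⟩⟩
  have hEsub : Ey ⊆ N2 D y ∪ Dy := by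
    intro z hz
    obtain ⟨hz1, hz2⟩ := Finset.mem_sdiff.1 hz
    have hzX : z ∉ X := fun h3 => hz2 (Finset.mem_union_right _ h3)
    have hzT : z ∉ cl D T := fun h3 => hz2 (Finset.mem_union_left _ h3)
    obtain ⟨c, hc, hcz⟩ := mem_cl.1 hz1
    rcases hcz with rfl | hcz
    · exact Finset.mem_union_right _ hc
    · have hyc : D.arc y c := mem_N1.1 (Finset.mem_inter.1 hc).1
      by_cases hyz : D.arc y z
      · refine Finset.mem_union_right _ (Finset.mem_inter.2 ⟨mem_N1.2 hyz, ?_⟩)
        refine Finset.mem_sdiff.2 ⟨?_, ?_⟩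
        · exact Finset.mem_sdiff.2 ⟨mem_cl.2 ⟨y, hy, Or.inr hyz⟩, hzX⟩
        · intro h3
          exact hzT (subset_cl D T h3)
      · refine Finset.mem_union_left _ (mem_N2.2 ⟨?_, hyz, c, hyc, hcz⟩)
        rintro rfl
        exact hzX hy
  have hN2 : N2 D' y ⊆ (N2 D y ∪ Dy) \ Ey := by
    intro z hz
    rw [mem_N2] at hz
    obtain ⟨hzy, hnz, c, hyc, hcz⟩ := hz
    refine Finset.mem_sdiff.2 ⟨?_, ?_⟩
    · by_cases hyz : D.arc y z
      · refine Finset.mem_union_right _ (Finset.mem_inter.2 ⟨mem_N1.2 hyz, ?_⟩)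
        by_contra hzZ
        exact hnz ⟨hyz, fun h3 => hzZ h3.2⟩
      · exact Finset.mem_union_left _ (mem_N2.2 ⟨hzy, hyz, c, hyc.1, hcz.1⟩)
    · intro hzE
      obtain ⟨_, hz2⟩ := Finset.mem_sdiff.1 hzE
      have hzX : z ∉ X := fun h3 => hz2 (Finset.mem_union_right _ h3)
      have hzT : z ∉ cl D T := fun h3 => hz2 (Finset.mem_union_left _ h3)
      by_cases hcX : c ∈ X
      · have hzL : z ∈ L :=
          Finset.mem_sdiff.2 ⟨mem_cl.2 ⟨c, hcX, Or.inr hcz.1⟩, hzX⟩
        have hzZ : z ∈ Z := Finset.mem_sdiff.2 ⟨hzL, fun h3 => hzT (subset_cl D T h3)⟩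
        exact hcz.2 ⟨hcX, hzZ⟩
      · have hcL : c ∈ L :=
          Finset.mem_sdiff.2 ⟨mem_cl.2 ⟨y, hy, Or.inr hyc.1⟩, hcX⟩
        have hcT : c ∈ T := by
          by_contra hcT
          exact hyc.2 ⟨hy, Finset.mem_sdiff.2 ⟨hcL, hcT⟩⟩
        exact hzT (mem_cl.2 ⟨c, hcT, Or.inr hcz.1⟩)
  have h1 := Finset.card_le_card hN2
  have hdis : Disjoint (N2 D y) Dy := by
    rw [Finset.disjoint_left]
    intro z hz hz'
    exact (mem_N2.1 hz).2.1 (mem_N1.1 (Finset.mem_inter.1 hz').1)
  have h1a := Finset.card_sdiff_add_card_eq_card hEsub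
  have h1b := Finset.card_union_of_disjoint hdis
  have h2 : (N1 D' y).card + Dy.card = (N1 D y).card := by
    rw [hN1]
    exact Finset.card_sdiff_add_card_eq_card Finset.inter_subset_left
  have hDT : Disjoint T Dy := by
    rw [Finset.disjoint_left]
    intro z hz hz'
    exact (Finset.mem_sdiff.1 (Finset.mem_inter.1 hz').2).2 hz
  have h2a := Finset.card_union_of_disjoint hDT
  have e1 : cl D (T ∪ Dy) \ X = (cl D T \ X) ∪ Ey := by
    rw [cl_union, hEy]
    ext z
    simp only [Finset.mem_sdiff, Finset.mem_union]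
    tauto
  have e2 : Disjoint (cl D T \ X) Ey := by
    rw [Finset.disjoint_left]
    intro z hz hz'
    exact (Finset.mem_sdiff.1 hz').2 (Finset.mem_union_left _ (Finset.mem_sdiff.1 hz).1)
  have e3 := Finset.card_union_of_disjoint e2
  unfold F dd
  rw [e1]
  omega

theorem numArcs_lt_del [DecidableEq V] {D : OGraph V} {X Z : Finset V} {y z : V} (hy : y ∈ X)
    (hz : z ∈ Z) (hyz : D.arc y z) : numArcs (del D X Z) < numArcs D := by
  unfold numArcs
  have hsub : ∀ v, N1 (del D X Z) v ⊆ N1 D v := by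
    intro v x hx
    rw [mem_N1] at hx ⊢
    exact hx.1
  refine Finset.sum_lt_sum (fun v _ => Finset.card_le_card (hsub v)) ⟨y, Finset.mem_univ _, ?_⟩
  refine Finset.card_lt_card (Finset.ssubset_iff_subset_ne.2 ⟨hsub y, fun he => ?_⟩)
  have h1 : z ∈ N1 (del D X Z) y := by
    rw [he]
    exact mem_N1.2 hyz
  exact (mem_N1.1 h1).2 ⟨hy, hz⟩

/-- (G): in a counterexample with the fewest arcs `|N₂(X)| < |N₁(X)|` for every set `X` with
`N₁(X)` nonempty. -/
theorem strictG [DecidableEq V] (D : OGraph V) (hF : ∀ v, 0 < F D v)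
    (hmin : ∀ D' : OGraph V, (∀ v, 0 < F D' v) → numArcs D ≤ numArcs D') (X : Finset V)
    (hX : cl D X ≠ X) : hh D (cl D X) < hh D X := by
  classical
  set L := cl D X \ X with hL
  have hLne : L.Nonempty := by
    rw [Finset.nonempty_iff_ne_empty]
    intro he
    exact hX (Finset.Subset.antisymm (Finset.sdiff_eq_empty_iff_subset.1 he) (subset_cl D X))
  obtain ⟨T, hT, hTmin⟩ := Finset.exists_min_image L.powerset (dd D X)
    ⟨∅, Finset.empty_mem_powerset _⟩
  rw [Finset.mem_powerset] at hT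
  have hTL : T = L := by
    by_contra hne
    obtain ⟨z, hzL, hzT⟩ := Finset.exists_of_ssubset (Finset.ssubset_iff_subset_ne.2 ⟨hT, hne⟩)
    obtain ⟨hz1, hz2⟩ := Finset.mem_sdiff.1 hzL
    obtain ⟨y, hy, hyz⟩ := mem_cl.1 hz1
    have hyz' : D.arc y z := by
      rcases hyz with rfl | h1
      · exact absurd hy hz2
      · exact h1
    have h1 := numArcs_lt_del (D := D) (Z := L \ T) hy (Finset.mem_sdiff.2 ⟨hzL, hzT⟩) hyz'
    have h2 : numArcs D ≤ numArcs (del D X (L \ T)) := by
      refine hmin _ fun v => ?_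
      by_cases hv : v ∈ X
      · have h3 := del_row_in (D := D) X T hv
        have h4 := hTmin (T ∪ (N1 D v ∩ (L \ T))) (Finset.mem_powerset.2
          (Finset.union_subset hT (Finset.inter_subset_right.trans Finset.sdiff_subset)))
        have h5 := hF v
        rw [← hL] at h3
        linarith
      · exact lt_of_lt_of_le (hF v) (del_row_out X _ hv)
    omega
  -- hence `d(L) < 0`; a strict inequality since `∅` is not a minimiser
  have hstrict : dd D X L < 0 := by
    have h0 : dd D X ∅ = 0 := by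
      have : cl D (∅ : Finset V) = ∅ := by
        ext z; simp [mem_cl]
      simp [dd, this]
    have h1 := hTmin ∅ (Finset.empty_mem_powerset _)
    rw [hTL, h0] at h1
    rcases lt_or_eq_of_le h1 with h2 | h2
    · exact h2
    · exfalso
      -- `∅` is a minimiser as well
      obtain ⟨z, hzL⟩ := hLne
      obtain ⟨hz1, hz2⟩ := Finset.mem_sdiff.1 hzL
      obtain ⟨y, hy, hyz⟩ := mem_cl.1 hz1
      have hyz' : D.arc y z := by
        rcases hyz with rfl | h1
        · exact absurd hy hz2
        · exact h1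
      have h3 := numArcs_lt_del (D := D) (Z := L \ ∅) hy
        (Finset.mem_sdiff.2 ⟨hzL, Finset.notMem_empty z⟩) hyz'
      have h4 : numArcs D ≤ numArcs (del D X (L \ ∅)) := by
        refine hmin _ fun v => ?_
        by_cases hv : v ∈ X
        · have h5 := del_row_in (D := D) X ∅ hv
          have h6 := hTmin (∅ ∪ (N1 D v ∩ (L \ ∅))) (Finset.mem_powerset.2
            (Finset.union_subset (Finset.empty_subset _)
              (Finset.inter_subset_right.trans Finset.sdiff_subset)))
          have h7 := hF v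
          rw [hTL, h2, ← h0] at h6
          rw [← hL] at h5
          linarith
        · exact lt_of_lt_of_le (hF v) (del_row_out X _ hv)
      omega
  have hcc : cl D (cl D X) = cl D X ∪ (cl D L \ X) := by
    have h1 : cl D X = X ∪ L := by
      rw [hL]
      exact (Finset.union_sdiff_of_subset (subset_cl D X)).symm
    conv_lhs => rw [h1, cl_union]
    ext z
    simp only [Finset.mem_sdiff, Finset.mem_union]
    constructor
    · rintro (h | h)
      · exact Or.inl h
      · by_cases hz : z ∈ X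
        · exact Or.inl (subset_cl D X hz)
        · exact Or.inr ⟨h, hz⟩
    · rintro (h | h)
      · exact Or.inl h
      · exact Or.inr h.1
  -- `|cl cl X| = |X| + |cl L \ X|`
  have hcc' : cl D (cl D X) = X ∪ (cl D L \ X) := by
    rw [hcc]
    ext z
    simp only [Finset.mem_sdiff, Finset.mem_union]
    constructor
    · rintro (h | h)
      · by_cases hz : z ∈ X
        · exact Or.inl hz
        · exact Or.inr ⟨subset_cl D L (Finset.mem_sdiff.2 ⟨h, hz⟩), hz⟩
      · exact Or.inr h
    · rintro (h | h)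
      · exact Or.inl (subset_cl D X h)
      · exact Or.inr h
  have h1 : (cl D (cl D X)).card = X.card + (cl D L \ X).card := by
    rw [hcc']
    exact Finset.card_union_of_disjoint Finset.disjoint_sdiff
  have h2 : L.card + X.card = (cl D X).card :=
    Finset.card_sdiff_add_card_eq_card (subset_cl D X)
  unfold dd at hstrict
  unfold hh
  omega

/-- Seymour's second neighbourhood conjecture. -/
theorem snc [Nonempty V] (D : OGraph V) : ∃ v, (N1 D v).card ≤ (N2 D v).card := by
  classical
  by_contra hcon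
  push Not at hcon
  have hne : {D : OGraph V | ∀ v, 0 < F D v}.Nonempty := by
    refine ⟨D, fun v => ?_⟩
    have := hcon v
    unfold F
    omega
  have hfin : Finite (OGraph V) := by
    refine Finite.of_injective (fun D : OGraph V => D.arc) ?_
    intro D D' h
    cases D; cases D'
    congr
  obtain ⟨D0, hD0, hmin⟩ := Set.exists_min_image {D : OGraph V | ∀ v, 0 < F D v} numArcs
    (Set.toFinite _) hne
  have hG := strictG D0 hD0 (fun D' h => hmin D' h)
  obtain ⟨X, Y, hXY, hJ⟩ := inout D0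
  have hG' : ∀ S : Finset V, hh D0 (cl D0 S) ≤ hh D0 S := by
    intro S
    by_cases hS : cl D0 S = S
    · rw [hS]
    · exact (hG S hS).le
  -- all `X a` are closed
  have hXc : ∀ a, cl D0 (X a) = X a := by
    intro a
    by_contra hne
    have h1 : ∑ a, hh D0 (cl D0 (X a)) < ∑ a, hh D0 (X a) :=
      Finset.sum_lt_sum (fun a _ => hG' (X a)) ⟨a, Finset.mem_univ _, hG (X a) hne⟩
    have h2 : ∑ a, hh D0 (cl D0 (Y a)) ≤ ∑ a, hh D0 (Y a) :=
      Finset.sum_le_sum fun a _ => hG' (Y a)
    unfold J at hJ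
    linarith
  -- a cycle
  have hout : ∀ v, ∃ u, D0.arc v u := by
    intro v
    have h1 := hD0 v
    unfold F at h1
    have h2 : 0 < (N1 D0 v).card := by omega
    obtain ⟨u, hu⟩ := Finset.card_pos.1 h2
    exact ⟨u, mem_N1.1 hu⟩
  choose f hf using hout
  obtain ⟨v0⟩ := ‹Nonempty V›
  have hit : ∀ (a : V) (n : ℕ), f^[n] a ∈ X a := by
    intro a n
    induction n with
    | zero => exact hXY.fst a
    | succ n ih =>
      rw [Function.iterate_succ_apply', ← hXc a]
      exact mem_cl.2 ⟨_, ih, Or.inr (hf _)⟩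
  obtain ⟨m, n, hmn, he⟩ := Finite.exists_ne_map_eq_of_infinite fun n : ℕ => f^[n] v0
  have hcyc : ∃ (v : V) (k : ℕ), f^[k + 1] v = v := by
    rcases lt_or_gt_of_ne hmn with h | h
    · refine ⟨f^[m] v0, n - m - 1, ?_⟩
      rw [← Function.iterate_add_apply]
      have : n - m - 1 + 1 + m = n := by omega
      rw [this]
      exact he.symm
    · refine ⟨f^[n] v0, m - n - 1, ?_⟩
      rw [← Function.iterate_add_apply]
      have : m - n - 1 + 1 + n = m := by omega
      rw [this]
      exact he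
  obtain ⟨v, k, hk⟩ := hcyc
  have h1 : v ∈ X (f v) := by
    have := hit (f v) k
    rwa [← Function.iterate_succ_apply, hk] at this
  refine hXY.sep (f v) v ?_ (subset_cl D0 _ h1) (mem_cl.2 ⟨v, hXY.snd v, Or.inr (hf v)⟩)
  intro he
  have := hf v
  rw [he] at this
  exact D0.loopless v this

end Vale.Agent.P038.H543
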